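import Vale.Agent.P281.H713.Packing

/-!
# P281, project T-M (helper615), block M3: lower bounds for the Eisenstein series of a lattice
-/

open scoped Topology ComplexConjugate
open Set Filter Metric

noncomputable section

namespace Vale.Agent.P281.H615.TM

/-! ### Power sums -/

/-- A power sum of numbers in the unit disc, one of which is `1`, is not small for some large
exponent. -/
theorem exists_pow_sum {ι : Type} [Fintype ι] (z : ι → ℂ) (hz : ∀ i, ‖z i‖ ≤ 1)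
    (h1 : ∃ i, z i = 1) (l₀ : ℕ) : ∃ l, l₀ ≤ l ∧ 1 / 2 < ‖∑ i, z i ^ l‖ := by
  classical
  by_contra hcon
  push Not at hcon
  set D : ℝ := ∑ i, if z i = 1 then 0 else 2 / ‖z i - 1‖ with hD
  have hgeo : ∀ (M : ℕ) i, (M : ℝ) * (if z i = 1 then 1 else 0) -
      (if z i = 1 then 0 else 2 / ‖z i - 1‖) ≤ (∑ l ∈ Finset.range M, z i ^ (l₀ + l)).re := by
    intro M i
    by_cases h : z i = 1
    · simp [h]
    · rw [if_neg h, if_neg h, mul_zero, zero_sub]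
      have h2 : ∑ l ∈ Finset.range M, z i ^ (l₀ + l) = z i ^ l₀ * ((z i ^ M - 1) / (z i - 1)) := by
        rw [← geom_sum_eq h, Finset.mul_sum]
        exact Finset.sum_congr rfl fun l _ => pow_add _ _ _
      have h3 : 0 < ‖z i - 1‖ := norm_pos_iff.2 (sub_ne_zero.2 h)
      have h4 : ‖∑ l ∈ Finset.range M, z i ^ (l₀ + l)‖ ≤ 2 / ‖z i - 1‖ := by
        rw [h2, norm_mul, norm_div, norm_pow]
        have h5 : ‖z i‖ ^ l₀ ≤ 1 := pow_le_one₀ (norm_nonneg _) (hz i)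
        have h6 : ‖z i ^ M - 1‖ ≤ 2 := by
          calc ‖z i ^ M - 1‖ ≤ ‖z i ^ M‖ + ‖(1 : ℂ)‖ := norm_sub_le _ _
            _ ≤ 1 + 1 := by
                rw [norm_pow, norm_one]
                gcongr
                exact pow_le_one₀ (norm_nonneg _) (hz i)
            _ = 2 := by norm_num
        calc ‖z i‖ ^ l₀ * (‖z i ^ M - 1‖ / ‖z i - 1‖) ≤ 1 * (2 / ‖z i - 1‖) := by
              gcongr
          _ = _ := one_mul _
      have h5 := Complex.abs_re_le_norm (∑ l ∈ Finset.range M, z i ^ (l₀ + l))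
      have h6 := (abs_le.1 h5).1
      linarith
  obtain ⟨i₁, hi₁⟩ := h1
  have key : ∀ M : ℕ, (M : ℝ) - D ≤ M / 2 := by
    intro M
    have e1 : ∑ i, ((M : ℝ) * (if z i = 1 then 1 else 0) -
        (if z i = 1 then 0 else 2 / ‖z i - 1‖)) ≤
        ∑ i, (∑ l ∈ Finset.range M, z i ^ (l₀ + l)).re := Finset.sum_le_sum fun i _ => hgeo M i
    rw [Finset.sum_sub_distrib, ← hD, ← Finset.mul_sum] at e1
    have e2 : (1 : ℝ) ≤ ∑ i, if z i = 1 then (1 : ℝ) else 0 := by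
      have h2 : (if z i₁ = 1 then (1 : ℝ) else 0) ≤ ∑ i, if z i = 1 then (1 : ℝ) else 0 :=
        Finset.single_le_sum (f := fun i => if z i = 1 then (1 : ℝ) else 0)
          (fun i _ => by
            show (0 : ℝ) ≤ if z i = 1 then (1 : ℝ) else 0
            split_ifs <;> norm_num) (Finset.mem_univ i₁)
      rwa [if_pos hi₁] at h2
    have e3 : ∑ i, (∑ l ∈ Finset.range M, z i ^ (l₀ + l)).re =
        ∑ l ∈ Finset.range M, (∑ i, z i ^ (l₀ + l)).re := by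
      simp only [Complex.re_sum]
      exact Finset.sum_comm
    have e4 : ∑ l ∈ Finset.range M, (∑ i, z i ^ (l₀ + l)).re ≤ ∑ l ∈ Finset.range M, (1 / 2 : ℝ) :=
      Finset.sum_le_sum fun l _ => (Complex.re_le_norm _).trans (hcon (l₀ + l) (Nat.le_add_right _ _))
    rw [Finset.sum_const, Finset.card_range, nsmul_eq_mul] at e4
    have e5 : (M : ℝ) * 1 ≤ M * ∑ i, if z i = 1 then (1 : ℝ) else 0 :=
      mul_le_mul_of_nonneg_left e2 (Nat.cast_nonneg M)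
    linarith
  obtain ⟨M, hM⟩ := exists_nat_gt (2 * D)
  have := key M
  linarith

theorem exists_finset_fin (N l₀ : ℕ) : ∃ K : Finset ℕ, (∀ l ∈ K, l₀ ≤ l) ∧
    ∀ z : Fin N → ℂ, (∀ i, ‖z i‖ ≤ 1) → (∃ i, z i = 1) → ∃ l ∈ K, 1 / 2 < ‖∑ i, z i ^ l‖ := by
  classical
  let 𝒵 : Set (Fin N → ℂ) := {z | (∀ i, ‖z i‖ ≤ 1) ∧ ∃ i, z i = 1}
  have hc : IsCompact 𝒵 := by
    have h2 : IsClosed 𝒵 := by
      have h3 : 𝒵 = (⋂ i, {z : Fin N → ℂ | ‖z i‖ ≤ 1}) ∩ ⋃ i, {z : Fin N → ℂ | z i = 1} := by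
        ext z
        simp only [𝒵, mem_ofPred_eq, mem_inter_iff, mem_iInter, mem_iUnion]
      rw [h3]
      refine (isClosed_iInter fun i => ?_).inter (isClosed_iUnion_of_finite fun i => ?_)
      · exact isClosed_le (continuous_apply i).norm continuous_const
      · exact isClosed_eq (continuous_apply i) continuous_const
    exact (isCompact_closedBall (0 : Fin N → ℂ) 1).of_isClosed_subset h2 fun z hz =>
      mem_closedBall_zero_iff.2 ((pi_norm_le_iff_of_nonneg zero_le_one).2 hz.1)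
  obtain ⟨t, ht⟩ := hc.elim_finite_subcover
    (fun l : {l : ℕ // l₀ ≤ l} => {z : Fin N → ℂ | 1 / 2 < ‖∑ i, z i ^ (l : ℕ)‖})
    (fun l => isOpen_lt continuous_const
      (continuous_finsetSum _ fun i _ => (continuous_apply i).pow _).norm)
    (fun z hz => by
      obtain ⟨l, hl, h⟩ := exists_pow_sum z hz.1 hz.2 l₀
      exact mem_iUnion.2 ⟨⟨l, hl⟩, h⟩)
  refine ⟨t.image Subtype.val, fun l hl => ?_, fun z hz h1 => ?_⟩
  · obtain ⟨l', -, rfl⟩ := Finset.mem_image.1 hl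
    exact l'.2
  · obtain ⟨l, hl, h⟩ := mem_iUnion₂.1 (ht ⟨hz, h1⟩)
    exact ⟨l, Finset.mem_image.2 ⟨l, hl, rfl⟩, h⟩

/-- **power sums**, uniformly -/
theorem exists_finset (N l₀ : ℕ) : ∃ K : Finset ℕ, (∀ l ∈ K, l₀ ≤ l) ∧
    ∀ (ι : Type) [Fintype ι] (z : ι → ℂ), Fintype.card ι ≤ N → (∀ i, ‖z i‖ ≤ 1) →
      (∃ i, z i = 1) → ∃ l ∈ K, 1 / 2 < ‖∑ i, z i ^ l‖ := by
  classical
  choose K hK hKz using fun n => exists_finset_fin n l₀
  refine ⟨(Finset.range (N + 1)).biUnion K, fun l hl => ?_, fun ι _ z hN hz h1 => ?_⟩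
  · obtain ⟨n, -, h⟩ := Finset.mem_biUnion.1 hl
    exact hK n l h
  · set e := Fintype.equivFin ι
    obtain ⟨i, hi⟩ := h1
    obtain ⟨l, hl, h⟩ := hKz _ (fun j => z (e.symm j)) (fun j => hz _) ⟨e i, by simp [hi]⟩
    refine ⟨l, Finset.mem_biUnion.2 ⟨_, Finset.mem_range.2 (by omega), hl⟩, ?_⟩
    rwa [e.symm.sum_comp (fun i => z i ^ l)] at h

/-! ### Lattices -/

/-- the vectors of the lattice with basis `P` -/
def lv (P : (Fin 2 → ℝ) ≃L[ℝ] ℂ) (m : Fin 2 → ℤ) : ℂ := P fun j => (m j : ℝ)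

/-- the Eisenstein series of weight `k` -/
def eis (P : (Fin 2 → ℝ) ≃L[ℝ] ℂ) (k : ℕ) : ℂ := ∑' m : Fin 2 → ℤ, ((P fun j => (m j : ℝ))⁻¹) ^ k

/-- the area -/
def covol (P : (Fin 2 → ℝ) ≃L[ℝ] ℂ) : ℝ :=
  |(conj (P (Pi.single 0 1)) * P (Pi.single 1 1)).im|

variable (P : (Fin 2 → ℝ) ≃L[ℝ] ℂ)

theorem lv_eq (m : Fin 2 → ℤ) :
    lv P m = (m 0 : ℂ) * P (Pi.single 0 1) + (m 1 : ℂ) * P (Pi.single 1 1) := by
  have h : (fun j => (m j : ℝ) : Fin 2 → ℝ) =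
      (m 0 : ℝ) • (Pi.single 0 1 : Fin 2 → ℝ) + (m 1 : ℝ) • (Pi.single 1 1 : Fin 2 → ℝ) := by
    funext j
    fin_cases j <;> simp
  rw [lv, h, map_add, map_smul, map_smul, Complex.real_smul, Complex.real_smul]
  norm_cast

theorem lv_sub (m m' : Fin 2 → ℤ) : lv P (m - m') = lv P m - lv P m' := by
  rw [lv_eq, lv_eq, lv_eq]
  simp only [Pi.sub_apply, Int.cast_sub]
  ring

theorem lv_ne {m : Fin 2 → ℤ} (h : m ≠ 0) : lv P m ≠ 0 := by
  intro h0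
  apply h
  have h1 : (fun j => (m j : ℝ) : Fin 2 → ℝ) = 0 := by
    have h2 : P (fun j => (m j : ℝ)) = 0 := h0
    exact (map_eq_zero_iff P P.injective).1 h2
  funext j
  have h3 : (m j : ℝ) = 0 := congrFun h1 j
  exact_mod_cast h3

theorem finite_le (B : ℝ) : {m : Fin 2 → ℤ | ‖lv P m‖ ≤ B}.Finite := by
  set B' : ℝ := ‖(P.symm : ℂ →L[ℝ] (Fin 2 → ℝ))‖ * |B|
  have h1 : {m : Fin 2 → ℤ | ‖lv P m‖ ≤ B} ⊆
      {m | ∀ i, m i ∈ Set.Icc (-⌈B'⌉) ⌈B'⌉} := by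
    intro m hm i
    have h2 : (fun j => (m j : ℝ) : Fin 2 → ℝ) = (P.symm : ℂ →L[ℝ] (Fin 2 → ℝ)) (lv P m) := by
      show _ = P.symm (P _)
      rw [P.symm_apply_apply]
    have h3 : ‖(fun j => (m j : ℝ) : Fin 2 → ℝ)‖ ≤ B' := by
      rw [h2]
      refine ((P.symm : ℂ →L[ℝ] (Fin 2 → ℝ)).le_opNorm _).trans ?_
      exact mul_le_mul_of_nonneg_left ((show ‖lv P m‖ ≤ B from hm).trans (le_abs_self B))
        (norm_nonneg _)
    have h4 := (norm_le_pi_norm (fun i => (m i : ℝ) : Fin 2 → ℝ) i).trans h3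
    rw [Real.norm_eq_abs] at h4
    have h5 : |(m i : ℝ)| ≤ ⌈B'⌉ := h4.trans (Int.le_ceil _)
    rw [← Int.cast_abs] at h5
    have h6 : |m i| ≤ ⌈B'⌉ := by exact_mod_cast h5
    exact abs_le.1 h6
  exact (Set.Finite.pi' fun _ => Set.finite_Icc _ _).subset h1

/-- a shortest vector -/
theorem exists_min : ∃ m₀ : Fin 2 → ℤ, m₀ ≠ 0 ∧ ∀ m, m ≠ 0 → ‖lv P m₀‖ ≤ ‖lv P m‖ := by
  set A : Set (Fin 2 → ℤ) := {m | m ≠ 0 ∧ ‖lv P m‖ ≤ ‖lv P (Pi.single 0 1)‖} with hA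
  have h1 : A.Finite := (finite_le P _).subset fun m hm => hm.2
  have h0 : (Pi.single 0 1 : Fin 2 → ℤ) ≠ 0 := by
    intro h
    have := congrFun h 0
    simp at this
  obtain ⟨m₀, h2, h3⟩ := Set.exists_min_image A (fun m => ‖lv P m‖) h1 ⟨Pi.single 0 1, h0, le_rfl⟩
  refine ⟨m₀, h2.1, fun m hm => ?_⟩
  by_cases h4 : ‖lv P m‖ ≤ ‖lv P (Pi.single 0 1)‖
  · exact h3 m ⟨hm, h4⟩
  · exact h2.2.trans (not_le.1 h4).le

/-- the area and the shortest vector -/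
theorem covol_ge {m₀ : Fin 2 → ℤ} (h0 : m₀ ≠ 0) (hmin : ∀ m, m ≠ 0 → ‖lv P m₀‖ ≤ ‖lv P m‖) :
    3 / 4 * ‖lv P m₀‖ ^ 4 ≤ covol P ^ 2 := by
  have hρ : 0 < ‖lv P m₀‖ := norm_pos_iff.2 (lv_ne P h0)
  -- `m₀` is primitive
  have hg : Int.gcd (m₀ 0) (m₀ 1) = 1 := by
    set g := Int.gcd (m₀ 0) (m₀ 1) with hg
    obtain ⟨a, ha⟩ : (g : ℤ) ∣ m₀ 0 := Int.gcd_dvd_left ..
    obtain ⟨b, hb⟩ : (g : ℤ) ∣ m₀ 1 := Int.gcd_dvd_right ..
    have hg0 : g ≠ 0 := by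
      intro h
      rw [h] at ha hb
      apply h0
      funext j
      fin_cases j
      · simpa using ha
      · simpa using hb
    set m' : Fin 2 → ℤ := ![a, b] with hm'
    have e1 : lv P m₀ = (g : ℂ) * lv P m' := by
      rw [lv_eq, lv_eq, ha, hb, hm']
      simp only [Matrix.cons_val_zero, Matrix.cons_val_one]
      push_cast
      ring
    have e2 : m' ≠ 0 := by
      intro h
      apply hρ.ne'
      rw [e1, h, lv_eq]
      simp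
    have e3 := hmin m' e2
    rw [e1, norm_mul, Complex.norm_natCast] at e3
    have e4 : 0 < ‖lv P m'‖ := norm_pos_iff.2 (lv_ne P e2)
    have e5 : (g : ℝ) ≤ 1 := by
      by_contra h
      push Not at h
      nlinarith
    have e6 : g ≤ 1 := by exact_mod_cast e5
    omega
  -- the second vector
  obtain ⟨a, b, hab⟩ : ∃ a b : ℤ, m₀ 0 * a + m₀ 1 * b = 1 := by
    refine ⟨Int.gcdA (m₀ 0) (m₀ 1), Int.gcdB (m₀ 0) (m₀ 1), ?_⟩
    rw [← Int.gcd_eq_gcd_ab, hg]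
    rfl
  set u := P (Pi.single 0 1) with hu
  set v := P (Pi.single 1 1) with hv
  set ω₀ := lv P m₀ with hω₀
  set x₁ : ℝ := (conj ω₀ * lv P ![-b, a]).re / ‖ω₀‖ ^ 2 with hx₁
  set n : ℤ := -round x₁ with hn
  set m₁ : Fin 2 → ℤ := ![-b + n * m₀ 0, a + n * m₀ 1] with hm₁
  have hdet : m₀ 0 * m₁ 1 - m₀ 1 * m₁ 0 = 1 := by
    rw [hm₁]
    simp only [Matrix.cons_val_zero, Matrix.cons_val_one]
    linear_combination hab
  have hm₁0 : m₁ ≠ 0 := by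
    intro h
    rw [h] at hdet
    simp at hdet
  have e1 : lv P m₁ = lv P ![-b, a] + (n : ℂ) * ω₀ := by
    rw [hω₀, lv_eq, lv_eq, lv_eq, hm₁]
    simp only [Matrix.cons_val_zero, Matrix.cons_val_one]
    push_cast
    ring
  have hnorm : conj ω₀ * ω₀ = ((‖ω₀‖ ^ 2 : ℝ) : ℂ) := by
    rw [mul_comm, Complex.mul_conj, Complex.normSq_eq_norm_sq]
  have e2 : (conj ω₀ * lv P m₁).re = (x₁ - round x₁) * ‖ω₀‖ ^ 2 := by
    rw [e1, mul_add, Complex.add_re]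
    have e3 : conj ω₀ * ((n : ℂ) * ω₀) = ((n * ‖ω₀‖ ^ 2 : ℝ) : ℂ) := by
      rw [mul_left_comm, hnorm]
      push_cast
      ring
    rw [e3, Complex.ofReal_re, hx₁, hn]
    push_cast
    field_simp
    ring
  have e3 : (conj ω₀ * lv P m₁).im = (conj u * v).im := by
    have hdet' : (m₀ 0 : ℝ) * m₁ 1 - m₀ 1 * m₁ 0 = 1 := by exact_mod_cast hdet
    rw [hω₀, lv_eq, lv_eq, ← hu, ← hv]
    simp only [map_add, map_mul, map_intCast, Complex.mul_im, Complex.mul_re,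
      Complex.add_re, Complex.add_im, Complex.conj_re, Complex.conj_im, Complex.intCast_re,
      Complex.intCast_im]
    linear_combination (u.re * v.im - u.im * v.re) * hdet'
  have e4 : ‖ω₀‖ ^ 2 * ‖lv P m₁‖ ^ 2 =
      (conj ω₀ * lv P m₁).re ^ 2 + (conj ω₀ * lv P m₁).im ^ 2 := by
    have h1 : ‖conj ω₀ * lv P m₁‖ ^ 2 = ‖ω₀‖ ^ 2 * ‖lv P m₁‖ ^ 2 := by
      rw [norm_mul, Complex.norm_conj, mul_pow]
    rw [← h1, ← Complex.normSq_eq_norm_sq, Complex.normSq_apply]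
    ring
  have e5 := hmin m₁ hm₁0
  have e6 : |x₁ - round x₁| ≤ 1 / 2 := abs_sub_round x₁
  have e7 : covol P ^ 2 = (conj ω₀ * lv P m₁).im ^ 2 := by
    rw [covol, sq_abs, e3]
  rw [e7]
  have e8 : (x₁ - round x₁) ^ 2 ≤ 1 / 4 := by
    have := sq_le_sq' (abs_le.1 e6).1 (abs_le.1 e6).2
    linarith
  have e9 : ‖ω₀‖ ^ 2 * ‖ω₀‖ ^ 2 ≤ ‖ω₀‖ ^ 2 * ‖lv P m₁‖ ^ 2 := by gcongr
  have e10 : (x₁ - round x₁) ^ 2 * (‖ω₀‖ ^ 2) ^ 2 ≤ 1 / 4 * (‖ω₀‖ ^ 2) ^ 2 :=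
    mul_le_mul_of_nonneg_right e8 (by positivity)
  rw [e4, e2] at e9
  nlinarith

/-- the Eisenstein series converge -/
theorem summable_eis {k : ℕ} (hk : 3 ≤ k) :
    Summable fun m : Fin 2 → ℤ => ‖((P fun j => (m j : ℝ))⁻¹) ^ k‖ := by
  obtain ⟨C, -, hC⟩ := H713.eis_sum_le
  obtain ⟨m₀, h0, hmin⟩ := exists_min P
  have hρ : 0 < ‖lv P m₀‖ := norm_pos_iff.2 (lv_ne P h0)
  have h1 := (hC {m : Fin 2 → ℤ // m ≠ 0} (fun i => lv P i.1) _ hρ (fun i => hmin _ i.2)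
    (fun i j hij => by
      rw [← lv_sub]
      exact hmin _ (sub_ne_zero.2 fun h => hij (Subtype.ext h))) k hk).1
  refine ((Subtype.val_injective (p := fun m : Fin 2 → ℤ => m ≠ 0)).summable_iff
    (f := fun m : Fin 2 → ℤ => ‖((P fun j => (m j : ℝ))⁻¹) ^ k‖) fun m hm => ?_).1 h1
  have hm0 : m = 0 := by
    by_contra h
    exact hm ⟨⟨m, h⟩, rfl⟩
  have h3 : (fun j => ((m j : ℤ) : ℝ)) = (0 : Fin 2 → ℝ) := by
    funext j
    simp [hm0]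
  rw [h3, map_zero, inv_zero, zero_pow (by omega), norm_zero]

/-- **the basic form**: one of the Eisenstein series, of the weights `2 l`, `l ∈ K`, is not small
compared with the shortest vector. -/
theorem basic (l₀ : ℕ) : ∃ K : Finset ℕ, (∀ l ∈ K, l₀ ≤ l ∧ 2 ≤ l) ∧
    ∀ (P : (Fin 2 → ℝ) ≃L[ℝ] ℂ) (m₀ : Fin 2 → ℤ), m₀ ≠ 0 →
      (∀ m, m ≠ 0 → ‖lv P m₀‖ ≤ ‖lv P m‖) →
      ∃ l ∈ K, 1 / 4 ≤ ‖lv P m₀‖ ^ (2 * l) * ‖eis P (2 * l)‖ := by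
  classical
  obtain ⟨C, hC0, hC⟩ := H713.packing
  obtain ⟨l₁, hl₁⟩ : ∃ l₁ : ℕ, 8 * C * (1 / 4 : ℝ) ^ l₁ ≤ 1 / 4 := by
    have h1 : Tendsto (fun l : ℕ => 8 * C * (1 / 4 : ℝ) ^ l) atTop (𝓝 (8 * C * 0)) :=
      (tendsto_pow_atTop_nhds_zero_of_lt_one (by norm_num) (by norm_num)).const_mul _
    rw [mul_zero] at h1
    exact (h1.eventually (Iic_mem_nhds (by norm_num : (0 : ℝ) < 1 / 4))).exists
  obtain ⟨K, hK, hKz⟩ := exists_finset ⌈8 * C⌉₊ (max (max l₀ 2) l₁)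
  refine ⟨K, fun l hl => ?_, fun P m₀ h0 hmin => ?_⟩
  · have := hK l hl
    omega
  set ω₀ := lv P m₀ with hω₀
  set ρ := ‖ω₀‖ with hρd
  have hω : ω₀ ≠ 0 := lv_ne P h0
  have hρ : 0 < ρ := norm_pos_iff.2 hω
  let I : Type := {m : Fin 2 → ℤ // m ≠ 0}
  have hsep : ∀ (i j : I), i ≠ j → ρ ≤ ‖lv P i.1 - lv P j.1‖ := by
    intro i j hij
    rw [← lv_sub]
    exact hmin _ (sub_ne_zero.2 fun h => hij (Subtype.ext h))
  have hfin : {i : I | ‖lv P i.1‖ < 2 * ρ}.Finite := by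
    refine Set.Finite.preimage (f := fun i : I => i.1) (Subtype.val_injective.injOn)
      (finite_le P (2 * ρ)) |>.subset fun i hi => ?_
    exact (show ‖lv P i.1‖ < 2 * ρ from hi).le
  set A : Finset I := hfin.toFinset with hA
  have hmem : ∀ i, i ∈ A ↔ ‖lv P i.1‖ < 2 * ρ := fun i => hfin.mem_toFinset
  have hcard : Fintype.card A ≤ ⌈8 * C⌉₊ := by
    rw [Fintype.card_coe]
    have h1 := hC I (fun i => lv P i.1) ρ hρ (fun i => hmin _ i.2) hsep A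
    have h2 : ∑ i ∈ A, (1 / 8 : ℝ) ≤ ∑ i ∈ A, (ρ / ‖lv P i.1‖) ^ 3 := by
      refine Finset.sum_le_sum fun i hi => ?_
      have h3 := (hmem i).1 hi
      have h4 : 0 < ‖lv P i.1‖ := norm_pos_iff.2 (lv_ne P i.2)
      have h5 : 1 / 2 ≤ ρ / ‖lv P i.1‖ := by
        rw [le_div_iff₀ h4]
        linarith
      calc (1 / 8 : ℝ) = (1 / 2) ^ 3 := by norm_num
        _ ≤ _ := by gcongr
    rw [Finset.sum_const, nsmul_eq_mul] at h2
    have h6 : (A.card : ℝ) ≤ 8 * C := by linarith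
    exact_mod_cast h6.trans (Nat.le_ceil _)
  -- the main terms
  have hi₀ : (⟨m₀, h0⟩ : I) ∈ A := (hmem _).2 (by
    show ‖lv P m₀‖ < 2 * ρ
    rw [← hω₀, ← hρd]
    linarith)
  obtain ⟨l, hl, hlz⟩ := hKz A (fun i => (ω₀ / lv P i.1.1) ^ 2) hcard
    (fun i => by
      rw [norm_pow, norm_div]
      have h4 : 0 < ‖lv P i.1.1‖ := norm_pos_iff.2 (lv_ne P i.1.2)
      exact pow_le_one₀ (by positivity) ((div_le_one h4).2 (hmin _ i.1.2)))
    ⟨⟨_, hi₀⟩, by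
      show (ω₀ / lv P m₀) ^ 2 = 1
      rw [← hω₀, div_self hω, one_pow]⟩
  have hll := hK l hl
  refine ⟨l, hl, ?_⟩
  -- the series
  set F : I → ℂ := fun i => (ω₀ / lv P i.1) ^ (2 * l) with hF
  have hsum : Summable fun m : Fin 2 → ℤ => ((P fun j => (m j : ℝ))⁻¹) ^ (2 * l) :=
    (summable_eis P (by omega : 3 ≤ 2 * l)).of_norm
  have hsI : Summable fun i : I => ((lv P i.1)⁻¹) ^ (2 * l) :=
    hsum.comp_injective (i := fun i : I => i.1) Subtype.val_injective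
  have hFs : Summable F := by
    refine (hsI.mul_left (ω₀ ^ (2 * l))).congr fun i => ?_
    rw [hF]
    simp only
    rw [div_eq_mul_inv, mul_pow]
  have hE : ω₀ ^ (2 * l) * eis P (2 * l) = ∑' i, F i := by
    have h1 : eis P (2 * l) = ∑' i : I, ((lv P i.1)⁻¹) ^ (2 * l) := by
      have h2 : Function.support (fun m : Fin 2 → ℤ => ((P fun j => (m j : ℝ))⁻¹) ^ (2 * l)) ⊆
          {m : Fin 2 → ℤ | m ≠ 0} := by
        intro m hm hm0
        apply hm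
        have h3 : (fun j => ((m j : ℤ) : ℝ)) = (0 : Fin 2 → ℝ) := by
          funext j
          simp [hm0]
        simp only
        rw [h3, map_zero, inv_zero, zero_pow (by omega)]
      exact (tsum_subtype_eq_of_support_subset h2).symm
    rw [h1, ← tsum_mul_left]
    refine tsum_congr fun i => ?_
    rw [hF]
    simp only
    rw [div_eq_mul_inv, mul_pow]
  have hsplit := hFs.sum_add_tsum_subtype_compl A
  -- the tail
  have htail : ‖∑' i : {i // i ∉ A}, F i‖ ≤ 8 * C * (1 / 4 : ℝ) ^ l := by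
    have h1 : ∀ i : {i // i ∉ A}, ‖F i‖ ≤ 8 * (1 / 4 : ℝ) ^ l * (ρ / ‖lv P i.1.1‖) ^ 3 := by
      intro i
      have h4 : 0 < ‖lv P i.1.1‖ := norm_pos_iff.2 (lv_ne P i.1.2)
      have h5 : 2 * ρ ≤ ‖lv P i.1.1‖ := by
        by_contra h
        exact i.2 ((hmem _).2 (not_le.1 h))
      have h6 : ρ / ‖lv P i.1.1‖ ≤ 1 / 2 := by
        rw [div_le_iff₀ h4]
        linarith
      rw [hF]
      simp only
      rw [norm_pow, norm_div, ← hρd]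
      set t := ρ / ‖lv P i.1.1‖ with ht
      have ht0 : 0 ≤ t := by positivity
      obtain ⟨j, hj⟩ : ∃ j, 2 * l = j + 3 := ⟨2 * l - 3, by omega⟩
      have h7 : (1 / 4 : ℝ) ^ l = (1 / 2) ^ (2 * l) := by
        rw [pow_mul]
        norm_num
      rw [h7, hj, pow_add, pow_add]
      have h8 : t ^ j ≤ (1 / 2) ^ j := by gcongr
      have h9 : (8 : ℝ) * ((1 / 2) ^ j * (1 / 2) ^ 3) = (1 / 2) ^ j := by ring
      rw [h9]
      gcongr
    have h2 : ∀ G : Finset {i // i ∉ A}, ∑ i ∈ G, ‖F i‖ ≤ 8 * C * (1 / 4 : ℝ) ^ l := by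
      intro G
      calc ∑ i ∈ G, ‖F i‖ ≤ ∑ i ∈ G, 8 * (1 / 4 : ℝ) ^ l * (ρ / ‖lv P i.1.1‖) ^ 3 :=
            Finset.sum_le_sum fun i _ => h1 i
        _ = 8 * (1 / 4 : ℝ) ^ l * ∑ i ∈ G, (ρ / ‖lv P i.1.1‖) ^ 3 := by rw [Finset.mul_sum]
        _ ≤ 8 * (1 / 4 : ℝ) ^ l * C := by
            gcongr
            exact hC {i // i ∉ A} (fun i => lv P i.1.1) ρ hρ (fun i => hmin _ i.1.2)
              (fun i j hij => hsep _ _ fun h => hij (Subtype.ext h)) G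
        _ = _ := by ring
    have h3 : Summable fun i : {i // i ∉ A} => ‖F i‖ :=
      summable_of_sum_le (fun i => norm_nonneg _) h2
    exact (norm_tsum_le_tsum_norm h3).trans (h3.tsum_le_of_sum_le h2)
  have htail' : 8 * C * (1 / 4 : ℝ) ^ l ≤ 1 / 4 := by
    refine le_trans ?_ hl₁
    have h1 : (1 / 4 : ℝ) ^ l ≤ (1 / 4) ^ l₁ :=
      pow_le_pow_of_le_one (by norm_num) (by norm_num) (by omega)
    gcongr
  have hmain : ∑ i ∈ A, F i = ∑ i : A, ((ω₀ / lv P i.1.1) ^ 2) ^ l := by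
    rw [← Finset.sum_coe_sort]
    refine Finset.sum_congr rfl fun i _ => ?_
    rw [hF]
    simp only
    rw [pow_mul]
  have hfinal : ‖ω₀ ^ (2 * l) * eis P (2 * l)‖ = ρ ^ (2 * l) * ‖eis P (2 * l)‖ := by
    rw [norm_mul, norm_pow]
  rw [← hfinal, hE, ← hsplit, hmain]
  have h1 := norm_sub_le_norm_add (∑ i : A, ((ω₀ / lv P i.1.1) ^ 2) ^ l)
    (∑' i : {i // i ∉ A}, F i)
  have h2 : 1 / 2 < ‖∑ i : A, ((ω₀ / lv P i.1.1) ^ 2) ^ l‖ := hlz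
  linarith

/-- **M3** -/
theorem lat : ∃ (K : Finset ℕ) (c : ℝ), 0 < c ∧ (∀ k ∈ K, 4 ≤ k ∧ Even k) ∧
    ∀ P : (Fin 2 → ℝ) ≃L[ℝ] ℂ, ∃ k ∈ K,
      c ≤ ‖∑' m : Fin 2 → ℤ, ((P fun j => (m j : ℝ))⁻¹) ^ k‖ ^ 2 *
        |(conj (P (Pi.single 0 1)) * P (Pi.single 1 1)).im| ^ k := by
  classical
  obtain ⟨K, hK, hKz⟩ := basic 2
  set M := K.sup (fun l => 2 * l) with hM
  refine ⟨K.image fun l => 2 * l, (1 / 16) * (1 / 2) ^ M, by positivity, fun k hk => ?_,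
    fun P => ?_⟩
  · obtain ⟨l, hl, rfl⟩ := Finset.mem_image.1 hk
    have := hK l hl
    exact ⟨by omega, even_two_mul l⟩
  obtain ⟨m₀, h0, hmin⟩ := exists_min P
  obtain ⟨l, hl, h⟩ := hKz P m₀ h0 hmin
  refine ⟨2 * l, Finset.mem_image.2 ⟨l, hl, rfl⟩, ?_⟩
  have hc := covol_ge P h0 hmin
  have hρ : 0 < ‖lv P m₀‖ := norm_pos_iff.2 (lv_ne P h0)
  have hc0 : 0 ≤ covol P := abs_nonneg _
  have h1 : 1 / 2 * ‖lv P m₀‖ ^ 2 ≤ covol P := by
    refine (pow_le_pow_iff_left₀ (by positivity) hc0 two_ne_zero).1 ?_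
    nlinarith [pow_pos hρ 4]
  have h2 : (1 / 2 : ℝ) ^ M ≤ (1 / 2) ^ (2 * l) :=
    pow_le_pow_of_le_one (by norm_num) (by norm_num) (Finset.le_sup (f := fun l => 2 * l) hl)
  show _ ≤ ‖eis P (2 * l)‖ ^ 2 * covol P ^ (2 * l)
  have h3 : (1 / 2 * ‖lv P m₀‖ ^ 2) ^ (2 * l) ≤ covol P ^ (2 * l) := by gcongr
  have h4 : (1 / 4 : ℝ) ^ 2 ≤ (‖lv P m₀‖ ^ (2 * l) * ‖eis P (2 * l)‖) ^ 2 := by gcongr
  calc (1 / 16) * (1 / 2 : ℝ) ^ M ≤ (1 / 16) * (1 / 2) ^ (2 * l) := by gcongr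
    _ = (1 / 4 : ℝ) ^ 2 * (1 / 2) ^ (2 * l) := by norm_num
    _ ≤ (‖lv P m₀‖ ^ (2 * l) * ‖eis P (2 * l)‖) ^ 2 * (1 / 2) ^ (2 * l) := by gcongr
    _ = ‖eis P (2 * l)‖ ^ 2 * (1 / 2 * ‖lv P m₀‖ ^ 2) ^ (2 * l) := by
        rw [mul_pow, mul_pow, ← pow_mul, ← pow_mul, mul_comm 2 (2 * l)]
        ring
    _ ≤ _ := by gcongr

end Vale.Agent.P281.H615.TM

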