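import Vale.Agent.P281.H615.TM.Lat

/-!
# P281, project T-M (helper615), block M3: lower bounds for the Eisenstein series, other forms
-/

open scoped Topology ComplexConjugate
open Set Filter Metric

noncomputable section

namespace Vale.Agent.P281.H615.TM

/-- **M3**, in terms of two generators -/
theorem latA : ∃ (K : Finset ℕ) (c : ℝ), 0 < c ∧ (∀ k ∈ K, 4 ≤ k ∧ Even k) ∧
    ∀ ω₁ ω₂ : ℂ, (conj ω₁ * ω₂).im ≠ 0 → ∃ k ∈ K,
      c ≤ ‖∑' m : Fin 2 → ℤ, (((m 0 : ℂ) * ω₁ + (m 1 : ℂ) * ω₂)⁻¹) ^ k‖ ^ 2 *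
        |(conj ω₁ * ω₂).im| ^ k := by
  obtain ⟨K, c, hc, hK, h⟩ := lat
  refine ⟨K, c, hc, hK, fun ω₁ ω₂ hω => ?_⟩
  -- the real isomorphism
  let T : (Fin 2 → ℝ) →ₗ[ℝ] ℂ :=
    { toFun := fun x => (x 0 : ℂ) * ω₁ + (x 1 : ℂ) * ω₂
      map_add' := fun x y => by
        simp only [Pi.add_apply, Complex.ofReal_add]
        ring
      map_smul' := fun a x => by
        simp only [Pi.smul_apply, smul_eq_mul, Complex.ofReal_mul, RingHom.id_apply,
          Complex.real_smul]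
        ring }
  have hinj : Function.Injective T := by
    rw [← LinearMap.ker_eq_bot, LinearMap.ker_eq_bot']
    intro x hx
    have hx' : (x 0 : ℂ) * ω₁ + (x 1 : ℂ) * ω₂ = 0 := hx
    have h1 := congrArg Complex.re hx'
    have h2 := congrArg Complex.im hx'
    simp only [Complex.add_re, Complex.mul_re, Complex.ofReal_re, Complex.ofReal_im, Complex.add_im,
      Complex.mul_im, Complex.zero_re, Complex.zero_im, zero_mul, sub_zero, add_zero] at h1 h2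
    have h3 : (conj ω₁ * ω₂).im = ω₁.re * ω₂.im - ω₁.im * ω₂.re := by
      rw [Complex.mul_im, Complex.conj_re, Complex.conj_im]
      ring
    rw [h3] at hω
    funext j
    fin_cases j
    · show x 0 = 0
      have : x 0 * (ω₁.re * ω₂.im - ω₁.im * ω₂.re) = 0 := by
        linear_combination ω₂.im * h1 - ω₂.re * h2
      exact (mul_eq_zero.1 this).resolve_right hω
    · show x 1 = 0
      have : x 1 * (ω₁.re * ω₂.im - ω₁.im * ω₂.re) = 0 := by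
        linear_combination ω₁.re * h2 - ω₁.im * h1
      exact (mul_eq_zero.1 this).resolve_right hω
  let P : (Fin 2 → ℝ) ≃L[ℝ] ℂ :=
    (LinearEquiv.ofInjectiveOfFinrankEq T hinj (by simp)).toContinuousLinearEquiv
  have hP : ∀ x, P x = (x 0 : ℂ) * ω₁ + (x 1 : ℂ) * ω₂ := fun x => rfl
  obtain ⟨k, hk, hb⟩ := h P
  refine ⟨k, hk, ?_⟩
  simp only [hP] at hb
  have e1 : ((Pi.single 0 1 : Fin 2 → ℝ) 0 : ℂ) * ω₁ + ((Pi.single 0 1 : Fin 2 → ℝ) 1 : ℂ) * ω₂ =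
      ω₁ := by simp
  have e2 : ((Pi.single 1 1 : Fin 2 → ℝ) 0 : ℂ) * ω₁ + ((Pi.single 1 1 : Fin 2 → ℝ) 1 : ℂ) * ω₂ =
      ω₂ := by simp
  rw [e1, e2] at hb
  simpa only [Complex.ofReal_intCast] using hb

/-- **M3**, for polarized periods: `|G_k(Λ)| ≥ c |g|^k` for one `k ∈ K`, if `g` is an isomorphism of
`ℂ / Λ` with a torus with the fixed polarization `Q`. -/
theorem latQ {n : ℕ} (Q : (Fin n → ℝ) → (Fin n → ℝ) → ℝ) :
    ∃ (K : Finset ℕ) (c : ℝ), 0 < c ∧ (∀ k ∈ K, 4 ≤ k ∧ Even k) ∧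
    ∀ (P : (Fin n → ℝ) ≃L[ℝ] ℂ) (G : ℂ ≃L[ℂ] ℂ),
      (∀ x x', (inner ℂ (G (P x)) (G (P x'))).im = Q x x') →
      ∃ k ∈ K, c * ‖G 1‖ ^ k ≤ ‖∑' m : Fin n → ℤ, ((P fun j => (m j : ℝ))⁻¹) ^ k‖ := by
  classical
  by_cases hn : n = 2
  swap
  · refine ⟨∅, 1, one_pos, by simp, fun P => ?_⟩
    exfalso
    apply hn
    have h := P.toLinearEquiv.finrank_eq
    rwa [Module.finrank_fin_fun, Complex.finrank_real_complex] at h
  subst hn
  obtain ⟨K, c, hc, hK, h⟩ := lat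
  set q : ℝ := max 1 |Q (Pi.single 0 1) (Pi.single 1 1)| with hq
  set M := K.sup id with hM
  have hq1 : 1 ≤ q := le_max_left _ _
  have hq0 : 0 < q := by linarith
  refine ⟨K, Real.sqrt (c / q ^ M), Real.sqrt_pos.2 (by positivity), hK, fun P G hG => ?_⟩
  obtain ⟨k, hk, hb⟩ := h P
  refine ⟨k, hk, ?_⟩
  have hkM : k ≤ M := Finset.le_sup (f := id) hk
  set E := ‖∑' m : Fin 2 → ℤ, ((P fun j => (m j : ℝ))⁻¹) ^ k‖ with hE
  set V := |(conj (P (Pi.single 0 1)) * P (Pi.single 1 1)).im| with hV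
  have hGx : ∀ x : ℂ, G x = G 1 * x := by
    intro x
    have h1 : G x = x • G 1 := by
      rw [← map_smul, smul_eq_mul, mul_one]
    rw [h1, smul_eq_mul, mul_comm]
  have e1 : ‖G 1‖ ^ 2 * V = |Q (Pi.single 0 1) (Pi.single 1 1)| := by
    rw [← hG, hV, hGx (P (Pi.single 0 1)), hGx (P (Pi.single 1 1))]
    have e2 : inner ℂ (G 1 * P (Pi.single 0 1)) (G 1 * P (Pi.single 1 1)) =
        ((‖G 1‖ ^ 2 : ℝ) : ℂ) * (conj (P (Pi.single 0 1)) * P (Pi.single 1 1)) := by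
      rw [RCLike.inner_apply, map_mul]
      have e3 : G 1 * conj (G 1) = ((‖G 1‖ ^ 2 : ℝ) : ℂ) := by
        rw [Complex.mul_conj, Complex.normSq_eq_norm_sq]
      rw [← e3]
      ring
    rw [e2, Complex.im_ofReal_mul, abs_mul, abs_of_nonneg (by positivity : (0 : ℝ) ≤ ‖G 1‖ ^ 2)]
  have e2 : ‖G 1‖ ^ 2 * V ≤ q := by
    rw [e1]
    exact le_max_right _ _
  have hV0 : 0 ≤ V := abs_nonneg _
  have e3 : c * (‖G 1‖ ^ k) ^ 2 ≤ E ^ 2 * q ^ M := by
    calc c * (‖G 1‖ ^ k) ^ 2 ≤ (E ^ 2 * V ^ k) * (‖G 1‖ ^ k) ^ 2 := by gcongr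
      _ = E ^ 2 * (‖G 1‖ ^ 2 * V) ^ k := by
          rw [mul_pow, ← pow_mul, ← pow_mul, mul_comm 2 k]
          ring
      _ ≤ E ^ 2 * q ^ k := by gcongr
      _ ≤ E ^ 2 * q ^ M := by gcongr
  have hE0 : 0 ≤ E := norm_nonneg _
  refine (pow_le_pow_iff_left₀ (by positivity) hE0 two_ne_zero).1 ?_
  rw [mul_pow, Real.sq_sqrt (by positivity), div_mul_eq_mul_div, div_le_iff₀ (by positivity)]
  exact e3

end Vale.Agent.P281.H615.TM
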